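import Mathlib

/-! The third level of the spectrum of an even one-dimensional tilt of the Gaussian,
by an elementary (Stein kernel) argument.  Lebesgue form. -/

open MeasureTheory Set Filter Topology

namespace Vale.Agent.P146.H44

/-- FTC for a function continuous on the positive half line. -/
lemma hasDerivAt_prim {k : ℝ → ℝ} (hk : ContinuousOn k (Ioi 0)) {c t : ℝ} (hc : 0 < c)
    (ht : 0 < t) : HasDerivAt (fun u => ∫ s in c..u, k s) (k t) t := by
  have hI : IntervalIntegrable k volume c t := by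
    apply ContinuousOn.intervalIntegrable
    refine hk.mono fun s hs => ?_
    rcases le_total c t with h | h
    · rw [uIcc_of_le h] at hs; exact lt_of_lt_of_le hc hs.1
    · rw [uIcc_of_ge h] at hs; exact lt_of_lt_of_le ht hs.1
  exact intervalIntegral.integral_hasDerivAt_right hI
    (hk.stronglyMeasurableAtFilter isOpen_Ioi t ht) (hk.continuousAt (Ioi_mem_nhds ht))

lemma ii {k : ℝ → ℝ} (hk : ContinuousOn k (Ioi 0)) {a b : ℝ} (ha : 0 < a) (hb : 0 < b) :
    IntervalIntegrable k volume a b := by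
  apply ContinuousOn.intervalIntegrable
  refine hk.mono fun s hs => ?_
  rcases le_total a b with h | h
  · rw [uIcc_of_le h] at hs; exact lt_of_lt_of_le ha hs.1
  · rw [uIcc_of_ge h] at hs; exact lt_of_lt_of_le hb hs.1

/-- Cauchy-Schwarz with weight `s`. -/
lemma cs {h h1 : ℝ → ℝ} (hd : ∀ t, 0 < t → HasDerivAt h (h1 t) t)
    (hc1 : ContinuousOn h1 (Ioi 0)) {a b : ℝ} (ha : 0 < a) (hab : a ≤ b) :
    (h b - h a) ^ 2 ≤ (b ^ 2 - a ^ 2) / 2 * ∫ s in a..b, h1 s ^ 2 / s := by
  have hb : 0 < b := lt_of_lt_of_le ha hab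
  have hcs : ContinuousOn (fun s : ℝ => s) (Ioi 0) := continuousOn_id
  have hq : ContinuousOn (fun s => h1 s ^ 2 / s) (Ioi 0) :=
    (hc1.pow 2).div hcs fun s hs => ne_of_gt hs
  have i1 := ii hq ha hb
  have i2 : IntervalIntegrable h1 volume a b := ii hc1 ha hb
  have i3 : IntervalIntegrable (fun s : ℝ => s) volume a b := ii hcs ha hb
  have hF : ∫ s in a..b, h1 s = h b - h a := by
    apply intervalIntegral.integral_eq_sub_of_hasDerivAt _ i2
    intro s hs
    rw [uIcc_of_le hab] at hs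
    exact hd s (lt_of_lt_of_le ha hs.1)
  have hs : ∫ s in a..b, s = (b ^ 2 - a ^ 2) / 2 := integral_id
  have key : ∀ l : ℝ, 0 ≤ (∫ s in a..b, h1 s ^ 2 / s) - 2 * l * (h b - h a) +
      l ^ 2 * ((b ^ 2 - a ^ 2) / 2) := by
    intro l
    have e : ∫ s in a..b, (h1 s ^ 2 / s - 2 * l * h1 s + l ^ 2 * s) =
        (∫ s in a..b, h1 s ^ 2 / s) - 2 * l * (h b - h a) + l ^ 2 * ((b ^ 2 - a ^ 2) / 2) := by
      rw [intervalIntegral.integral_add (i1.sub (i2.const_mul _)) (i3.const_mul _),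
        intervalIntegral.integral_sub i1 (i2.const_mul _),
        intervalIntegral.integral_const_mul, intervalIntegral.integral_const_mul, hF, hs]
    rw [← e]
    apply intervalIntegral.integral_nonneg hab
    intro s hs
    have hs0 : 0 < s := lt_of_lt_of_le ha hs.1
    have : h1 s ^ 2 / s - 2 * l * h1 s + l ^ 2 * s = (h1 s - l * s) ^ 2 / s := by
      field_simp; ring
    rw [this]; positivity
  rcases eq_or_lt_of_le hab with hlt | hlt
  · subst hlt; simp
  · have hp : 0 < (b ^ 2 - a ^ 2) / 2 := by nlinarith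
    have := key ((h b - h a) / ((b ^ 2 - a ^ 2) / 2))
    set D := (b ^ 2 - a ^ 2) / 2 with hD
    set I := ∫ s in a..b, h1 s ^ 2 / s
    set x := h b - h a
    have e2 : I - 2 * (x / D) * x + (x / D) ^ 2 * D = I - x ^ 2 / D := by
      field_simp; ring
    rw [e2] at this
    have h3 : x ^ 2 / D ≤ I := by linarith
    rw [div_le_iff₀ hp] at h3
    linarith [mul_comm I D]

/-- right of `√3` -/
lemma right_part {h h1 p V1 : ℝ → ℝ} {d : ℝ} (hd : ∀ t, 0 < t → HasDerivAt h (h1 t) t)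
    (hc1 : ContinuousOn h1 (Ioi 0)) (hp : ∀ t, HasDerivAt p (p t * (V1 t - t)) t)
    (hp0 : ∀ t, 0 < p t) (hV1 : Continuous V1) (hV : ∀ t, |V1 t| ≤ d * |t|) (hd0 : 0 ≤ d)
    (hd1 : d ≤ 1 / 8) {R : ℝ} (hR : √3 ≤ R) :
    ∫ t in (√3)..R, (h t - h (√3)) ^ 2 * (t ^ 2 * p t) ≤
      (1 + 5 * d) / 2 * ∫ t in (√3)..R, h1 t ^ 2 * (t ^ 2 * p t) := by
  set c := √3 with hc
  have hc2 : c ^ 2 = 3 := Real.sq_sqrt (by norm_num)
  have hc0 : 0 < c := Real.sqrt_pos.2 (by norm_num)
  have hR0 : 0 < R := lt_of_lt_of_le hc0 hR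
  have hpc : Continuous p := continuous_iff_continuousAt.2 fun t => (hp t).continuousAt
  have hcs : ContinuousOn (fun s : ℝ => s) (Ioi 0) := continuousOn_id
  have hkc : ContinuousOn (fun s => h1 s ^ 2 / s) (Ioi 0) :=
    (hc1.pow 2).div hcs fun s hs => ne_of_gt hs
  set k : ℝ → ℝ := fun s => h1 s ^ 2 / s with hk
  set G : ℝ → ℝ := fun t => ∫ s in c..t, k s with hG
  set U : ℝ → ℝ := fun t => (1 + 2 * d) * t ^ 3 + 8 * d * t with hU
  set D : ℝ → ℝ := fun t => ((1 + 2 * d) * (3 * t ^ 2) + 8 * d) * p t +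
    U t * (p t * (V1 t - t)) with hD
  have hUd : ∀ t, HasDerivAt U ((1 + 2 * d) * (3 * t ^ 2) + 8 * d) t := by
    intro t
    have := ((hasDerivAt_pow 3 t).const_mul (1 + 2 * d)).add ((hasDerivAt_id t).const_mul (8 * d))
    refine this.congr_deriv ?_
    simp
  have hUp : ∀ t, HasDerivAt (fun t => U t * p t) (D t) t := fun t => (hUd t).mul (hp t)
  have hGd : ∀ t, 0 < t → HasDerivAt G (k t) t := fun t ht => hasDerivAt_prim hkc hc0 ht
  have hhc : ContinuousOn h (Ioi 0) := fun t ht => (hd t ht).continuousAt.continuousWithinAt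
  have hGc : ContinuousOn G (Ioi 0) := fun t ht => (hGd t ht).continuousAt.continuousWithinAt
  have hDc : Continuous D := by
    rw [hD]; simp only [hU]; fun_prop
  have hUc : Continuous U := by rw [hU]; fun_prop
  have sub : ∀ t ∈ Icc c R, 0 < t := fun t ht => lt_of_lt_of_le hc0 ht.1
  -- pointwise
  have hVl : ∀ t, 0 < t → |V1 t| ≤ d * t := fun t ht => by
    have := hV t; rwa [abs_of_pos ht] at this
  have hpt : ∀ t ∈ Icc c R, (h t - h c) ^ 2 * (t ^ 2 * p t) ≤ -(1 / 2) * (D t * G t) := by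
    intro t ht
    have ht0 := sub t ht
    have h3 : 3 ≤ t ^ 2 := by rw [← hc2]; exact pow_le_pow_left₀ hc0.le ht.1 2
    have hGn : 0 ≤ G t := by
      apply intervalIntegral.integral_nonneg ht.1
      intro s hs
      have : 0 < s := lt_of_lt_of_le hc0 hs.1
      simp only [hk]; positivity
    have h4 : (h t - h c) ^ 2 ≤ (t ^ 2 - 3) / 2 * G t := by
      have := cs hd hc1 hc0 ht.1
      rwa [hc2] at this
    have h5 : (t ^ 2 - 3) * (t ^ 2 * p t) ≤ - D t := by
      have hv := abs_le.1 (hVl t ht0)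
      have e : - D t - (t ^ 2 - 3) * (t ^ 2 * p t) =
          (2 * d * (t ^ 4 - 3 * t ^ 2) + 8 * d * (t ^ 2 - 1) - U t * V1 t) * p t := by
        simp only [hD, hU]; ring
      have hU0 : 0 ≤ U t := by simp only [hU]; positivity
      have h6 : U t * V1 t ≤ U t * (d * t) := mul_le_mul_of_nonneg_left hv.2 hU0
      have h7 : U t * (d * t) ≤ 2 * d * (t ^ 4 - 3 * t ^ 2) + 8 * d * (t ^ 2 - 1) := by
        simp only [hU]
        have : 2 * d * (t ^ 4 - 3 * t ^ 2) + 8 * d * (t ^ 2 - 1) -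
            ((1 + 2 * d) * t ^ 3 + 8 * d * t) * (d * t) =
            d * ((1 - 2 * d) * (t ^ 2) ^ 2 + (2 - 8 * d) * t ^ 2 - 8) := by ring
        have h8 : 0 ≤ (1 - 2 * d) * (t ^ 2) ^ 2 + (2 - 8 * d) * t ^ 2 - 8 := by
          nlinarith [mul_nonneg (sub_nonneg.2 h3) (sub_nonneg.2 h3),
            mul_nonneg (sub_nonneg.2 hd1) (sub_nonneg.2 h3),
            mul_nonneg (sub_nonneg.2 hd1) (mul_nonneg (sub_nonneg.2 h3) (sub_nonneg.2 h3))]
        have := mul_nonneg hd0 h8
        linarith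
      have h9 : 0 ≤ - D t - (t ^ 2 - 3) * (t ^ 2 * p t) := by
        rw [e]; exact mul_nonneg (by linarith) (hp0 t).le
      linarith
    have h10 : 0 ≤ t ^ 2 * p t := by have := hp0 t; positivity
    calc (h t - h c) ^ 2 * (t ^ 2 * p t) ≤ (t ^ 2 - 3) / 2 * G t * (t ^ 2 * p t) :=
          mul_le_mul_of_nonneg_right h4 h10
      _ = (1 / 2) * (((t ^ 2 - 3) * (t ^ 2 * p t)) * G t) := by ring
      _ ≤ (1 / 2) * ((- D t) * G t) := by
          apply mul_le_mul_of_nonneg_left _ (by norm_num)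
          exact mul_le_mul_of_nonneg_right h5 hGn
      _ = -(1 / 2) * (D t * G t) := by ring
  have ic : ∀ {F : ℝ → ℝ}, ContinuousOn F (Ioi 0) → IntervalIntegrable F volume c R :=
    fun hF => ii hF hc0 hR0
  have hDG : ContinuousOn (fun t => D t * G t) (Ioi 0) := hDc.continuousOn.mul hGc
  have hUk : ContinuousOn (fun t => U t * p t * k t) (Ioi 0) :=
    (hUc.mul hpc).continuousOn.mul hkc
  have hL : ContinuousOn (fun t => (h t - h c) ^ 2 * (t ^ 2 * p t)) (Ioi 0) :=
    ((hhc.sub continuousOn_const).pow 2).mul (((continuous_pow 2).mul hpc).continuousOn)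
  have hRc : ContinuousOn (fun t => h1 t ^ 2 * (t ^ 2 * p t)) (Ioi 0) :=
    (hc1.pow 2).mul (((continuous_pow 2).mul hpc).continuousOn)
  have hibp : ∫ t in c..R, (D t * G t + U t * p t * k t) =
      U R * p R * G R - U c * p c * G c := by
    apply intervalIntegral.integral_deriv_mul_eq_sub
    · intro t _; exact hUp t
    · intro t ht
      rw [uIcc_of_le hR] at ht
      exact hGd t (sub t ht)
    · exact hDc.intervalIntegrable _ _
    · exact ic hkc
  have hGcc : G c = 0 := by simp [hG]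
  have hGR : 0 ≤ G R := by
    apply intervalIntegral.integral_nonneg hR
    intro s hs
    have : 0 < s := lt_of_lt_of_le hc0 hs.1
    simp only [hk]; positivity
  have hUR : 0 ≤ U R * p R * G R := by
    have := hp0 R
    have : 0 ≤ U R := by simp only [hU]; positivity
    positivity
  rw [intervalIntegral.integral_add (ic hDG) (ic hUk), hGcc, mul_zero, sub_zero] at hibp
  calc ∫ t in c..R, (h t - h c) ^ 2 * (t ^ 2 * p t)
      ≤ ∫ t in c..R, -(1 / 2) * (D t * G t) :=
        intervalIntegral.integral_mono_on hR (ic hL) ((ic hDG).const_mul _) hpt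
    _ = -(1 / 2) * ∫ t in c..R, D t * G t := intervalIntegral.integral_const_mul _ _
    _ ≤ (1 / 2) * ∫ t in c..R, U t * p t * k t := by linarith
    _ ≤ (1 / 2) * ∫ t in c..R, (1 + 5 * d) * (h1 t ^ 2 * (t ^ 2 * p t)) := by
        apply mul_le_mul_of_nonneg_left _ (by norm_num)
        apply intervalIntegral.integral_mono_on hR (ic hUk) ((ic hRc).const_mul _)
        intro t ht
        have ht0 := sub t ht
        have h3 : 3 ≤ t ^ 2 := by rw [← hc2]; exact pow_le_pow_left₀ hc0.le ht.1 2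
        have hUt : U t ≤ (1 + 5 * d) * t ^ 3 := by
          simp only [hU]
          have : (1 + 5 * d) * t ^ 3 - ((1 + 2 * d) * t ^ 3 + 8 * d * t) =
            d * t * (3 * t ^ 2 - 8) := by ring
          have h8 : 0 ≤ d * t * (3 * t ^ 2 - 8) :=
            mul_nonneg (mul_nonneg hd0 ht0.le) (by linarith)
          linarith
        have hkt : 0 ≤ p t * k t := by
          have := hp0 t
          simp only [hk]; positivity
        calc U t * p t * k t = U t * (p t * k t) := by ring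
          _ ≤ (1 + 5 * d) * t ^ 3 * (p t * k t) := mul_le_mul_of_nonneg_right hUt hkt
          _ = (1 + 5 * d) * (h1 t ^ 2 * (t ^ 2 * p t)) := by
              simp only [hk]; field_simp
    _ = (1 + 5 * d) / 2 * ∫ t in c..R, h1 t ^ 2 * (t ^ 2 * p t) := by
        rw [intervalIntegral.integral_const_mul]; ring

/-- left of `√3` -/
lemma left_part {h h1 p V1 : ℝ → ℝ} {d : ℝ} (hd : ∀ t, 0 < t → HasDerivAt h (h1 t) t)
    (hc1 : ContinuousOn h1 (Ioi 0)) (hp : ∀ t, HasDerivAt p (p t * (V1 t - t)) t)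
    (hp0 : ∀ t, 0 < p t) (hV1 : Continuous V1) (hV : ∀ t, |V1 t| ≤ d * |t|) (hd0 : 0 ≤ d)
    (hd1 : d ≤ 1 / 8) {R : ℝ} (hR0 : 0 < R) (hR : R ≤ √3) :
    ∫ t in R..(√3), (h t - h (√3)) ^ 2 * (t ^ 2 * p t) ≤
      (1 + 5 * d) / 2 * ∫ t in R..(√3), h1 t ^ 2 * (t ^ 2 * p t) := by
  set c := √3 with hc
  have hc2 : c ^ 2 = 3 := Real.sq_sqrt (by norm_num)
  have hc0 : 0 < c := Real.sqrt_pos.2 (by norm_num)
  have hpc : Continuous p := continuous_iff_continuousAt.2 fun t => (hp t).continuousAt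
  have hcs : ContinuousOn (fun s : ℝ => s) (Ioi 0) := continuousOn_id
  have hkc : ContinuousOn (fun s => h1 s ^ 2 / s) (Ioi 0) :=
    (hc1.pow 2).div hcs fun s hs => ne_of_gt hs
  set k : ℝ → ℝ := fun s => h1 s ^ 2 / s with hk
  set G : ℝ → ℝ := fun t => ∫ s in c..t, k s with hG
  set U : ℝ → ℝ := fun t => t ^ 3 + 2 / 3 * d * t ^ 5 with hU
  set D : ℝ → ℝ := fun t => (3 * t ^ 2 + 2 / 3 * d * (5 * t ^ 4)) * p t +
    U t * (p t * (V1 t - t)) with hD
  have hUd : ∀ t, HasDerivAt U (3 * t ^ 2 + 2 / 3 * d * (5 * t ^ 4)) t := by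
    intro t
    have := (hasDerivAt_pow 3 t).add ((hasDerivAt_pow 5 t).const_mul (2 / 3 * d))
    refine this.congr_deriv ?_
    simp
  have hUp : ∀ t, HasDerivAt (fun t => U t * p t) (D t) t := fun t => (hUd t).mul (hp t)
  have hGd : ∀ t, 0 < t → HasDerivAt G (k t) t := fun t ht => hasDerivAt_prim hkc hc0 ht
  have hhc : ContinuousOn h (Ioi 0) := fun t ht => (hd t ht).continuousAt.continuousWithinAt
  have hGc : ContinuousOn G (Ioi 0) := fun t ht => (hGd t ht).continuousAt.continuousWithinAt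
  have hDc : Continuous D := by
    rw [hD]; simp only [hU]; fun_prop
  have hUc : Continuous U := by rw [hU]; fun_prop
  have sub : ∀ t ∈ Icc R c, 0 < t := fun t ht => lt_of_lt_of_le hR0 ht.1
  have hVl : ∀ t, 0 < t → |V1 t| ≤ d * t := fun t ht => by
    have := hV t; rwa [abs_of_pos ht] at this
  have hGn : ∀ t, 0 < t → t ≤ c → G t ≤ 0 := by
    intro t ht0 htc
    simp only [hG]
    rw [intervalIntegral.integral_symm]
    have : 0 ≤ ∫ s in t..c, k s := by
      apply intervalIntegral.integral_nonneg htc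
      intro s hs
      have : 0 < s := lt_of_lt_of_le ht0 hs.1
      simp only [hk]; positivity
    linarith
  have hpt : ∀ t ∈ Icc R c, (h t - h c) ^ 2 * (t ^ 2 * p t) ≤ -(1 / 2) * (D t * G t) := by
    intro t ht
    have ht0 := sub t ht
    have h3 : t ^ 2 ≤ 3 := by rw [← hc2]; exact pow_le_pow_left₀ ht0.le ht.2 2
    have hGt := hGn t ht0 ht.2
    have h4 : (h t - h c) ^ 2 ≤ (t ^ 2 - 3) / 2 * G t := by
      have := cs hd hc1 ht0 ht.2
      rw [hc2] at this
      have e1 : (h t - h c) ^ 2 = (h c - h t) ^ 2 := by ring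
      have e2 : ∫ s in t..c, h1 s ^ 2 / s = - G t := by
        simp only [hG]; rw [intervalIntegral.integral_symm]
      rw [e1]; rw [e2] at this
      linarith
    have h5 : (3 - t ^ 2) * (t ^ 2 * p t) ≤ D t := by
      have hv := abs_le.1 (hVl t ht0)
      have e : D t - (3 - t ^ 2) * (t ^ 2 * p t) =
          (2 / 3 * d * (5 * t ^ 4) - 2 / 3 * d * t ^ 6 + U t * V1 t) * p t := by
        simp only [hD, hU]; ring
      have hU0 : 0 ≤ U t := by simp only [hU]; positivity
      have h6 : U t * (-(d * t)) ≤ U t * V1 t := mul_le_mul_of_nonneg_left hv.1 hU0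
      have h7 : 0 ≤ 2 / 3 * d * (5 * t ^ 4) - 2 / 3 * d * t ^ 6 + U t * (-(d * t)) := by
        simp only [hU]
        have e3 : 2 / 3 * d * (5 * t ^ 4) - 2 / 3 * d * t ^ 6 +
            (t ^ 3 + 2 / 3 * d * t ^ 5) * (-(d * t)) =
            d * t ^ 4 * (7 / 3 - 2 / 3 * (1 + d) * t ^ 2) := by ring
        rw [e3]
        apply mul_nonneg (by positivity)
        nlinarith
      have h9 : 0 ≤ D t - (3 - t ^ 2) * (t ^ 2 * p t) := by
        rw [e]; exact mul_nonneg (by linarith) (hp0 t).le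
      linarith
    have h10 : 0 ≤ t ^ 2 * p t := by have := hp0 t; positivity
    calc (h t - h c) ^ 2 * (t ^ 2 * p t) ≤ (t ^ 2 - 3) / 2 * G t * (t ^ 2 * p t) :=
          mul_le_mul_of_nonneg_right h4 h10
      _ = (1 / 2) * (((3 - t ^ 2) * (t ^ 2 * p t)) * (- G t)) := by ring
      _ ≤ (1 / 2) * ((D t) * (- G t)) := by
          apply mul_le_mul_of_nonneg_left _ (by norm_num)
          exact mul_le_mul_of_nonneg_right h5 (by linarith)
      _ = -(1 / 2) * (D t * G t) := by ring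
  have ic : ∀ {F : ℝ → ℝ}, ContinuousOn F (Ioi 0) → IntervalIntegrable F volume R c :=
    fun hF => ii hF hR0 hc0
  have hDG : ContinuousOn (fun t => D t * G t) (Ioi 0) := hDc.continuousOn.mul hGc
  have hUk : ContinuousOn (fun t => U t * p t * k t) (Ioi 0) :=
    (hUc.mul hpc).continuousOn.mul hkc
  have hL : ContinuousOn (fun t => (h t - h c) ^ 2 * (t ^ 2 * p t)) (Ioi 0) :=
    ((hhc.sub continuousOn_const).pow 2).mul (((continuous_pow 2).mul hpc).continuousOn)
  have hRc : ContinuousOn (fun t => h1 t ^ 2 * (t ^ 2 * p t)) (Ioi 0) :=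
    (hc1.pow 2).mul (((continuous_pow 2).mul hpc).continuousOn)
  have hibp : ∫ t in R..c, (D t * G t + U t * p t * k t) =
      U c * p c * G c - U R * p R * G R := by
    apply intervalIntegral.integral_deriv_mul_eq_sub
    · intro t _; exact hUp t
    · intro t ht
      rw [uIcc_of_le hR] at ht
      exact hGd t (sub t ht)
    · exact hDc.intervalIntegrable _ _
    · exact ic hkc
  have hGcc : G c = 0 := by simp [hG]
  have hGR : 0 ≤ U R * p R * (- G R) := by
    have h1 := hp0 R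
    have h2 : 0 ≤ U R := by simp only [hU]; positivity
    have h3 := hGn R hR0 hR
    have : 0 ≤ - G R := by linarith
    positivity
  rw [intervalIntegral.integral_add (ic hDG) (ic hUk), hGcc, mul_zero, zero_sub] at hibp
  calc ∫ t in R..c, (h t - h c) ^ 2 * (t ^ 2 * p t)
      ≤ ∫ t in R..c, -(1 / 2) * (D t * G t) :=
        intervalIntegral.integral_mono_on hR (ic hL) ((ic hDG).const_mul _) hpt
    _ = -(1 / 2) * ∫ t in R..c, D t * G t := intervalIntegral.integral_const_mul _ _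
    _ ≤ (1 / 2) * ∫ t in R..c, U t * p t * k t := by
        have e : U R * p R * (- G R) = -(U R * p R * G R) := by ring
        rw [e] at hGR
        linarith
    _ ≤ (1 / 2) * ∫ t in R..c, (1 + 5 * d) * (h1 t ^ 2 * (t ^ 2 * p t)) := by
        apply mul_le_mul_of_nonneg_left _ (by norm_num)
        apply intervalIntegral.integral_mono_on hR (ic hUk) ((ic hRc).const_mul _)
        intro t ht
        have ht0 := sub t ht
        have h3 : t ^ 2 ≤ 3 := by rw [← hc2]; exact pow_le_pow_left₀ ht0.le ht.2 2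
        have hUt : U t ≤ (1 + 5 * d) * t ^ 3 := by
          simp only [hU]
          have : (1 + 5 * d) * t ^ 3 - (t ^ 3 + 2 / 3 * d * t ^ 5) =
            d * t ^ 3 * (5 - 2 / 3 * t ^ 2) := by ring
          have h8 : 0 ≤ d * t ^ 3 * (5 - 2 / 3 * t ^ 2) :=
            mul_nonneg (mul_nonneg hd0 (by positivity)) (by linarith)
          linarith
        have hkt : 0 ≤ p t * k t := by
          have := hp0 t
          simp only [hk]; positivity
        calc U t * p t * k t = U t * (p t * k t) := by ring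
          _ ≤ (1 + 5 * d) * t ^ 3 * (p t * k t) := mul_le_mul_of_nonneg_right hUt hkt
          _ = (1 + 5 * d) * (h1 t ^ 2 * (t ^ 2 * p t)) := by
              simp only [hk]; field_simp
    _ = (1 + 5 * d) / 2 * ∫ t in R..c, h1 t ^ 2 * (t ^ 2 * p t) := by
        rw [intervalIntegral.integral_const_mul]; ring


/-- both sides of `√3` together, in terms of `f = t h` -/
lemma two_sided {f f1 p V1 : ℝ → ℝ} {d : ℝ} (hf : ∀ t, HasDerivAt f (f1 t) t)
    (hf1 : Continuous f1) (hp : ∀ t, HasDerivAt p (p t * (V1 t - t)) t)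
    (hp0 : ∀ t, 0 < p t) (hV1 : Continuous V1) (hV : ∀ t, |V1 t| ≤ d * |t|) (hd0 : 0 ≤ d)
    (hd1 : d ≤ 1 / 8) {a R : ℝ} (ha : 0 < a) (hac : a ≤ √3) (hR : √3 ≤ R) :
    (∫ t in a..R, f t ^ 2 * p t) - 2 * (f (√3) / √3) * (∫ t in a..R, f t * t * p t) +
      (f (√3) / √3) ^ 2 * (∫ t in a..R, t ^ 2 * p t) ≤
      (1 + 5 * d) / 2 * ((∫ t in a..R, f1 t ^ 2 * p t) - (1 - d) * (∫ t in a..R, f t ^ 2 * p t) +
        f a ^ 2 / a * p a) ∧
    (1 - d) * (∫ t in a..R, f t ^ 2 * p t) ≤ (∫ t in a..R, f1 t ^ 2 * p t) + f a ^ 2 / a * p a := by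
  set c := √3 with hc
  have hc0 : 0 < c := Real.sqrt_pos.2 (by norm_num)
  have hR0 : 0 < R := lt_of_lt_of_le hc0 hR
  have haR : a ≤ R := hac.trans hR
  have hpc : Continuous p := continuous_iff_continuousAt.2 fun t => (hp t).continuousAt
  have hfc : Continuous f := continuous_iff_continuousAt.2 fun t => (hf t).continuousAt
  set h : ℝ → ℝ := fun t => f t / t with hh
  set h1 : ℝ → ℝ := fun t => (f1 t * t - f t * 1) / t ^ 2 with hh1
  have hd : ∀ t, 0 < t → HasDerivAt h (h1 t) t := fun t ht => (hf t).div (hasDerivAt_id t) ht.ne'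
  have hcs : ContinuousOn (fun s : ℝ => s) (Ioi 0) := continuousOn_id
  have hc1 : ContinuousOn h1 (Ioi 0) := by
    apply ContinuousOn.div
    · exact ((hf1.mul continuous_id).sub (hfc.mul continuous_const)).continuousOn
    · exact (continuous_pow 2).continuousOn
    · intro s hs; exact pow_ne_zero 2 (ne_of_gt hs)
  have hL := left_part hd hc1 hp hp0 hV1 hV hd0 hd1 ha hac
  have hRt := right_part hd hc1 hp hp0 hV1 hV hd0 hd1 hR
  rw [← hc] at hL hRt
  have hhc : ContinuousOn h (Ioi 0) := fun t ht => (hd t ht).continuousAt.continuousWithinAt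
  have cL : ContinuousOn (fun t => (h t - h c) ^ 2 * (t ^ 2 * p t)) (Ioi 0) :=
    ((hhc.sub continuousOn_const).pow 2).mul (((continuous_pow 2).mul hpc).continuousOn)
  have cR : ContinuousOn (fun t => h1 t ^ 2 * (t ^ 2 * p t)) (Ioi 0) :=
    (hc1.pow 2).mul (((continuous_pow 2).mul hpc).continuousOn)
  have sL : ∫ t in a..R, (h t - h c) ^ 2 * (t ^ 2 * p t) =
      (∫ t in a..c, (h t - h c) ^ 2 * (t ^ 2 * p t)) +
      ∫ t in c..R, (h t - h c) ^ 2 * (t ^ 2 * p t) :=
    (intervalIntegral.integral_add_adjacent_intervals (ii cL ha hc0) (ii cL hc0 hR0)).symm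
  have sR : ∫ t in a..R, h1 t ^ 2 * (t ^ 2 * p t) =
      (∫ t in a..c, h1 t ^ 2 * (t ^ 2 * p t)) + ∫ t in c..R, h1 t ^ 2 * (t ^ 2 * p t) :=
    (intervalIntegral.integral_add_adjacent_intervals (ii cR ha hc0) (ii cR hc0 hR0)).symm
  have hsum : ∫ t in a..R, (h t - h c) ^ 2 * (t ^ 2 * p t) ≤
      (1 + 5 * d) / 2 * ∫ t in a..R, h1 t ^ 2 * (t ^ 2 * p t) := by
    rw [sL, sR]; linarith
  have i1 : IntervalIntegrable (fun t => f t ^ 2 * p t) volume a R :=
    ((hfc.pow 2).mul hpc).intervalIntegrable _ _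
  have i2 : IntervalIntegrable (fun t => f t * t * p t) volume a R :=
    ((hfc.mul continuous_id).mul hpc).intervalIntegrable _ _
  have i3 : IntervalIntegrable (fun t => t ^ 2 * p t) volume a R :=
    ((continuous_pow 2).mul hpc).intervalIntegrable _ _
  have i4 : IntervalIntegrable (fun t => f1 t ^ 2 * p t) volume a R :=
    ((hf1.pow 2).mul hpc).intervalIntegrable _ _
  have eL : ∫ t in a..R, (h t - h c) ^ 2 * (t ^ 2 * p t) =
      (∫ t in a..R, f t ^ 2 * p t) - 2 * (f c / c) * (∫ t in a..R, f t * t * p t) +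
      (f c / c) ^ 2 * (∫ t in a..R, t ^ 2 * p t) := by
    rw [← intervalIntegral.integral_const_mul, ← intervalIntegral.integral_const_mul,
      ← intervalIntegral.integral_sub i1 (i2.const_mul _),
      ← intervalIntegral.integral_add (i1.sub (i2.const_mul _)) (i3.const_mul _)]
    apply intervalIntegral.integral_congr
    intro t ht
    rw [uIcc_of_le haR] at ht
    have ht0 : 0 < t := lt_of_lt_of_le ha ht.1
    simp only [hh]
    field_simp
    ring
  -- integration by parts for `f ^ 2 / t`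
  set q : ℝ → ℝ := fun t => (2 * f t * f1 t * t - f t ^ 2 * 1) / t ^ 2 with hq
  have hqd : ∀ t, 0 < t → HasDerivAt (fun t => f t ^ 2 / t) (q t) t := by
    intro t ht
    have := ((hf t).pow 2).div (hasDerivAt_id t) ht.ne'
    refine this.congr_deriv ?_
    simp [hq]
  have hqc : ContinuousOn q (Ioi 0) := by
    apply ContinuousOn.div
    · exact (((continuous_const.mul hfc).mul hf1).mul continuous_id |>.sub
        ((hfc.pow 2).mul continuous_const)).continuousOn
    · exact (continuous_pow 2).continuousOn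
    · intro s hs; exact pow_ne_zero 2 (ne_of_gt hs)
  have hibp : ∫ t in a..R, (q t * p t + f t ^ 2 / t * (p t * (V1 t - t))) =
      f R ^ 2 / R * p R - f a ^ 2 / a * p a := by
    apply intervalIntegral.integral_deriv_mul_eq_sub (u := fun t => f t ^ 2 / t) (v := p)
    · intro t ht
      rw [uIcc_of_le haR] at ht
      exact hqd t (lt_of_lt_of_le ha ht.1)
    · intro t _; exact hp t
    · exact ii hqc ha hR0
    · exact (hpc.mul (hV1.sub continuous_id)).intervalIntegrable _ _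
  have c5 : ContinuousOn (fun t => q t * p t) (Ioi 0) := hqc.mul hpc.continuousOn
  have c6 : ContinuousOn (fun t => f t ^ 2 / t * (p t * (V1 t - t))) (Ioi 0) :=
    (((hfc.pow 2).continuousOn).div hcs fun s hs => ne_of_gt hs).mul
      ((hpc.mul (hV1.sub continuous_id)).continuousOn)
  rw [intervalIntegral.integral_add (ii c5 ha hR0) (ii c6 ha hR0)] at hibp
  have e5 : ∫ t in a..R, h1 t ^ 2 * (t ^ 2 * p t) =
      (∫ t in a..R, f1 t ^ 2 * p t) - ∫ t in a..R, q t * p t := by
    rw [← intervalIntegral.integral_sub i4 (ii c5 ha hR0)]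
    apply intervalIntegral.integral_congr
    intro t ht
    rw [uIcc_of_le haR] at ht
    have ht0 : 0 < t := lt_of_lt_of_le ha ht.1
    simp only [hh1, hq]
    field_simp
    ring
  have e6 : ∫ t in a..R, f t ^ 2 / t * (p t * (V1 t - t)) ≤
      ∫ t in a..R, -(1 - d) * (f t ^ 2 * p t) := by
    apply intervalIntegral.integral_mono_on haR (ii c6 ha hR0) (i1.const_mul _)
    intro t ht
    have ht0 : 0 < t := lt_of_lt_of_le ha ht.1
    have hv : V1 t ≤ d * t := by
      have := (abs_le.1 (hV t)).2; rwa [abs_of_pos ht0] at this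
    have hp' := hp0 t
    have e7 : -(1 - d) * (f t ^ 2 * p t) - f t ^ 2 / t * (p t * (V1 t - t)) =
        f t ^ 2 / t * p t * (d * t - V1 t) := by
      field_simp; ring
    have : 0 ≤ f t ^ 2 / t * p t * (d * t - V1 t) :=
      mul_nonneg (by positivity) (by linarith)
    linarith
  rw [intervalIntegral.integral_const_mul] at e6
  have hpR : 0 ≤ f R ^ 2 / R * p R := by have := hp0 R; positivity
  have main : ∫ t in a..R, h1 t ^ 2 * (t ^ 2 * p t) ≤
      (∫ t in a..R, f1 t ^ 2 * p t) - (1 - d) * (∫ t in a..R, f t ^ 2 * p t) +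
        f a ^ 2 / a * p a := by
    rw [e5]; linarith
  have hnn : 0 ≤ ∫ t in a..R, h1 t ^ 2 * (t ^ 2 * p t) := by
    apply intervalIntegral.integral_nonneg haR
    intro t ht
    have := hp0 t
    positivity
  refine ⟨?_, by linarith⟩
  rw [← eL]
  refine hsum.trans ?_
  exact mul_le_mul_of_nonneg_left main (by linarith)

lemma tend0 {F : ℝ → ℝ} (hF : Continuous F) (R : ℝ) :
    Tendsto (fun a => ∫ t in a..R, F t) (𝓝[>] 0) (𝓝 (∫ t in (0:ℝ)..R, F t)) := by
  have h1 : Continuous fun a => ∫ t in R..a, F t :=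
    intervalIntegral.continuous_primitive (fun a b => hF.intervalIntegrable a b) R
  have h2 : Continuous fun a => ∫ t in a..R, F t := by
    have : (fun a => ∫ t in a..R, F t) = fun a => - ∫ t in R..a, F t := by
      funext a; exact intervalIntegral.integral_symm _ _
    rw [this]; exact h1.neg
  exact (h2.tendsto 0).mono_left nhdsWithin_le_nhds

/-- half line form -/
theorem half {f f1 p V1 : ℝ → ℝ} {d : ℝ} (hf : ∀ t, HasDerivAt f (f1 t) t)
    (hf1 : Continuous f1) (hf0 : f 0 = 0) (hp : ∀ t, HasDerivAt p (p t * (V1 t - t)) t)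
    (hp0 : ∀ t, 0 < p t) (hV1 : Continuous V1) (hV : ∀ t, |V1 t| ≤ d * |t|) (hd0 : 0 ≤ d)
    (hd1 : d ≤ 1 / 8) (j0 : IntegrableOn (fun t => f t ^ 2 * p t) (Ioi 0))
    (j1 : IntegrableOn (fun t => f1 t ^ 2 * p t) (Ioi 0))
    (j2 : IntegrableOn (fun t => t ^ 2 * p t) (Ioi 0))
    (j3 : IntegrableOn (fun t => f t * t * p t) (Ioi 0)) :
    (∫ t in Ioi 0, f t ^ 2 * p t) - 2 * (f (√3) / √3) * (∫ t in Ioi 0, f t * t * p t) +
      (f (√3) / √3) ^ 2 * (∫ t in Ioi 0, t ^ 2 * p t) ≤
      (1 + 5 * d) / 2 * ((∫ t in Ioi 0, f1 t ^ 2 * p t) - (1 - d) * ∫ t in Ioi 0, f t ^ 2 * p t) ∧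
    (1 - d) * (∫ t in Ioi 0, f t ^ 2 * p t) ≤ ∫ t in Ioi 0, f1 t ^ 2 * p t := by
  have hpc : Continuous p := continuous_iff_continuousAt.2 fun t => (hp t).continuousAt
  have hfc : Continuous f := continuous_iff_continuousAt.2 fun t => (hf t).continuousAt
  have hc0 : (0:ℝ) < √3 := Real.sqrt_pos.2 (by norm_num)
  have k0 : Continuous fun t => f t ^ 2 * p t := (hfc.pow 2).mul hpc
  have k1 : Continuous fun t => f1 t ^ 2 * p t := (hf1.pow 2).mul hpc
  have k2 : Continuous fun t => t ^ 2 * p t := (continuous_pow 2).mul hpc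
  have k3 : Continuous fun t => f t * t * p t := (hfc.mul continuous_id).mul hpc
  have hb : Tendsto (fun a => f a ^ 2 / a * p a) (𝓝[>] 0) (𝓝 0) := by
    have h1 : Tendsto (fun a => a⁻¹ • (f (0 + a) - f 0)) (𝓝[>] 0) (𝓝 (f1 0)) :=
      ((hasDerivAt_iff_tendsto_slope_zero.1 (hf 0))).mono_left
        (nhdsWithin_mono _ fun x hx => ne_of_gt hx)
    have h2 : Tendsto (fun a => f a * p a) (𝓝[>] 0) (𝓝 (f 0 * p 0)) :=
      ((hfc.mul hpc).tendsto 0).mono_left nhdsWithin_le_nhds
    have h3 := h1.mul h2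
    rw [hf0, zero_mul, mul_zero] at h3
    refine h3.congr' ?_
    filter_upwards [self_mem_nhdsWithin] with a ha
    have : (a:ℝ) ≠ 0 := ne_of_gt ha
    simp only [zero_add, smul_eq_mul, sub_zero]
    field_simp
  have step : ∀ R, √3 ≤ R →
      (∫ t in (0:ℝ)..R, f t ^ 2 * p t) - 2 * (f (√3) / √3) * (∫ t in (0:ℝ)..R, f t * t * p t) +
      (f (√3) / √3) ^ 2 * (∫ t in (0:ℝ)..R, t ^ 2 * p t) ≤
      (1 + 5 * d) / 2 * ((∫ t in (0:ℝ)..R, f1 t ^ 2 * p t) -
        (1 - d) * (∫ t in (0:ℝ)..R, f t ^ 2 * p t)) ∧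
      (1 - d) * (∫ t in (0:ℝ)..R, f t ^ 2 * p t) ≤ ∫ t in (0:ℝ)..R, f1 t ^ 2 * p t := by
    intro R hR
    have t0 := tend0 k0 R
    have t1 := tend0 k1 R
    have t2 := tend0 k2 R
    have t3 := tend0 k3 R
    have hev : ∀ᶠ a in 𝓝[>] (0:ℝ), 0 < a ∧ a ≤ √3 := by
      have : ∀ᶠ a in 𝓝 (0:ℝ), a ≤ √3 := (Iic_mem_nhds hc0)
      filter_upwards [self_mem_nhdsWithin, nhdsWithin_le_nhds this] with a h1 h2 using ⟨h1, h2⟩
    constructor
    · refine le_of_tendsto_of_tendsto
        ((t0.sub (t3.const_mul (2 * (f (√3) / √3)))).add (t2.const_mul ((f (√3) / √3) ^ 2)))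
        (((t1.sub (t0.const_mul (1 - d))).add hb).const_mul ((1 + 5 * d) / 2)) ?_ |>.trans
        (le_of_eq (by ring))
      filter_upwards [hev] with a ha
      exact (two_sided hf hf1 hp hp0 hV1 hV hd0 hd1 ha.1 ha.2 hR).1
    · refine le_of_tendsto_of_tendsto (t0.const_mul (1 - d)) (t1.add hb) ?_ |>.trans
        (le_of_eq (by ring))
      filter_upwards [hev] with a ha
      exact (two_sided hf hf1 hp hp0 hV1 hV hd0 hd1 ha.1 ha.2 hR).2
  have u0 := intervalIntegral_tendsto_integral_Ioi 0 j0 tendsto_id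
  have u1 := intervalIntegral_tendsto_integral_Ioi 0 j1 tendsto_id
  have u2 := intervalIntegral_tendsto_integral_Ioi 0 j2 tendsto_id
  have u3 := intervalIntegral_tendsto_integral_Ioi 0 j3 tendsto_id
  constructor
  · refine le_of_tendsto_of_tendsto
      ((u0.sub (u3.const_mul (2 * (f (√3) / √3)))).add (u2.const_mul ((f (√3) / √3) ^ 2)))
      ((u1.sub (u0.const_mul (1 - d))).const_mul ((1 + 5 * d) / 2)) ?_
    filter_upwards [eventually_ge_atTop (√3)] with R hR
    exact (step R hR).1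
  · refine le_of_tendsto_of_tendsto (u0.const_mul (1 - d)) u1 ?_
    filter_upwards [eventually_ge_atTop (√3)] with R hR
    exact (step R hR).2

lemma even_int {F : ℝ → ℝ} (hF : ∀ t, F (-t) = F t) : ∫ t, F t = 2 * ∫ t in Ioi 0, F t := by
  rw [← integral_comp_abs]
  congr 1
  funext t
  rcases abs_choice t with h | h
  · rw [h]
  · rw [h, hF]

/-- **Third level of an even tilt.** -/
theorem gap3 {f f1 p V1 : ℝ → ℝ} {d : ℝ} (hf : ∀ t, HasDerivAt f (f1 t) t)
    (hf1 : Continuous f1) (ho : ∀ t, f (-t) = - f t)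
    (hp : ∀ t, HasDerivAt p (p t * (V1 t - t)) t) (hpe : ∀ t, p (-t) = p t)
    (hp0 : ∀ t, 0 < p t) (hV1 : Continuous V1) (hV : ∀ t, |V1 t| ≤ d * |t|) (hd0 : 0 ≤ d)
    (hd1 : d ≤ 1 / 8) (j0 : Integrable fun t => f t ^ 2 * p t)
    (j1 : Integrable fun t => f1 t ^ 2 * p t) (j2 : Integrable fun t => t ^ 2 * p t)
    (h0 : ∫ t, f t * t * p t = 0) :
    (3 - 11 * d) * ∫ t, f t ^ 2 * p t ≤ ∫ t, f1 t ^ 2 * p t := by
  have hpc : Continuous p := continuous_iff_continuousAt.2 fun t => (hp t).continuousAt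
  have hfc : Continuous f := continuous_iff_continuousAt.2 fun t => (hf t).continuousAt
  have hf0 : f 0 = 0 := by have := ho 0; simp at this; linarith
  have he1 : ∀ t, f1 (-t) = f1 t := by
    intro t
    have h1 : HasDerivAt (fun s => f (-s)) (f1 (-t) * -1) t :=
      (hf (-t)).comp t (hasDerivAt_neg t)
    have h2 : HasDerivAt (fun s => f (-s)) (-f1 t) t := by
      have : (fun s => f (-s)) = fun s => - f s := funext ho
      rw [this]; exact (hf t).neg
    have := h1.unique h2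
    linarith
  have j3 : Integrable fun t => f t * t * p t := by
    refine (j0.add j2).mono' ((hfc.mul continuous_id).mul hpc).aestronglyMeasurable ?_
    refine Eventually.of_forall fun t => ?_
    have hpt := hp0 t
    rw [Real.norm_eq_abs, abs_mul, abs_of_pos hpt]
    simp only [Pi.add_apply]
    have : |f t * t| ≤ f t ^ 2 + t ^ 2 := by
      rw [abs_mul]; nlinarith [sq_nonneg (|f t| - |t|), sq_abs (f t), sq_abs t,
        sq_nonneg (f t), sq_nonneg t]
    nlinarith
  have H := (half hf hf1 hf0 hp hp0 hV1 hV hd0 hd1 j0.integrableOn j1.integrableOn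
    j2.integrableOn j3.integrableOn).1
  have e0 : ∫ t, f t ^ 2 * p t = 2 * ∫ t in Ioi 0, f t ^ 2 * p t :=
    even_int fun t => by rw [ho, hpe]; ring
  have e1 : ∫ t, f1 t ^ 2 * p t = 2 * ∫ t in Ioi 0, f1 t ^ 2 * p t :=
    even_int fun t => by rw [he1, hpe]
  have e3 : ∫ t, f t * t * p t = 2 * ∫ t in Ioi 0, f t * t * p t :=
    even_int fun t => by rw [ho, hpe]; ring
  rw [e3] at h0
  have h0' : ∫ t in Ioi 0, f t * t * p t = 0 := by linarith
  have n2 : 0 ≤ ∫ t in Ioi 0, t ^ 2 * p t :=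
    integral_nonneg fun t => mul_nonneg (sq_nonneg _) (hp0 t).le
  have n0 : 0 ≤ ∫ t in Ioi 0, f t ^ 2 * p t :=
    integral_nonneg fun t => mul_nonneg (sq_nonneg _) (hp0 t).le
  rw [h0', mul_zero, sub_zero] at H
  rw [e0, e1]
  set S0 := ∫ t in Ioi 0, f t ^ 2 * p t
  set S1 := ∫ t in Ioi 0, f1 t ^ 2 * p t
  have h5 : S0 ≤ (1 + 5 * d) / 2 * (S1 - (1 - d) * S0) := by
    have : 0 ≤ (f (√3) / √3) ^ 2 * ∫ t in Ioi 0, t ^ 2 * p t := mul_nonneg (sq_nonneg _) n2
    linarith
  have h6 : 0 ≤ S1 - (1 - d) * S0 := by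
    by_contra hneg
    push Not at hneg
    have := mul_neg_of_pos_of_neg (show (0:ℝ) < (1 + 5 * d) / 2 by linarith) hneg
    linarith
  have h7 : (2 - 10 * d) * S0 ≤ S1 - (1 - d) * S0 := by
    have h8 : (2 - 10 * d) * S0 ≤ (2 - 10 * d) * ((1 + 5 * d) / 2 * (S1 - (1 - d) * S0)) :=
      mul_le_mul_of_nonneg_left h5 (by linarith)
    have h9 : (2 - 10 * d) * ((1 + 5 * d) / 2 * (S1 - (1 - d) * S0)) ≤ S1 - (1 - d) * S0 := by
      nlinarith [mul_nonneg (sq_nonneg d) h6]
    linarith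
  linarith

/-- first level of an even tilt, odd functions -/
theorem gap1 {f f1 p V1 : ℝ → ℝ} {d : ℝ} (hf : ∀ t, HasDerivAt f (f1 t) t)
    (hf1 : Continuous f1) (ho : ∀ t, f (-t) = - f t)
    (hp : ∀ t, HasDerivAt p (p t * (V1 t - t)) t) (hpe : ∀ t, p (-t) = p t)
    (hp0 : ∀ t, 0 < p t) (hV1 : Continuous V1) (hV : ∀ t, |V1 t| ≤ d * |t|) (hd0 : 0 ≤ d)
    (hd1 : d ≤ 1 / 8) (j0 : Integrable fun t => f t ^ 2 * p t)
    (j1 : Integrable fun t => f1 t ^ 2 * p t) (j2 : Integrable fun t => t ^ 2 * p t) :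
    (1 - d) * ∫ t, f t ^ 2 * p t ≤ ∫ t, f1 t ^ 2 * p t := by
  have hpc : Continuous p := continuous_iff_continuousAt.2 fun t => (hp t).continuousAt
  have hfc : Continuous f := continuous_iff_continuousAt.2 fun t => (hf t).continuousAt
  have hf0 : f 0 = 0 := by have := ho 0; simp at this; linarith
  have he1 : ∀ t, f1 (-t) = f1 t := by
    intro t
    have h1 : HasDerivAt (fun s => f (-s)) (f1 (-t) * -1) t :=
      (hf (-t)).comp t (hasDerivAt_neg t)
    have h2 : HasDerivAt (fun s => f (-s)) (-f1 t) t := by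
      have : (fun s => f (-s)) = fun s => - f s := funext ho
      rw [this]; exact (hf t).neg
    have := h1.unique h2
    linarith
  have j3 : Integrable fun t => f t * t * p t := by
    refine (j0.add j2).mono' ((hfc.mul continuous_id).mul hpc).aestronglyMeasurable ?_
    refine Eventually.of_forall fun t => ?_
    have hpt := hp0 t
    rw [Real.norm_eq_abs, abs_mul, abs_of_pos hpt]
    simp only [Pi.add_apply]
    have : |f t * t| ≤ f t ^ 2 + t ^ 2 := by
      rw [abs_mul]; nlinarith [sq_nonneg (|f t| - |t|), sq_abs (f t), sq_abs t,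
        sq_nonneg (f t), sq_nonneg t]
    nlinarith
  have H := (half hf hf1 hf0 hp hp0 hV1 hV hd0 hd1 j0.integrableOn j1.integrableOn
    j2.integrableOn j3.integrableOn).2
  have e0 : ∫ t, f t ^ 2 * p t = 2 * ∫ t in Ioi 0, f t ^ 2 * p t :=
    even_int fun t => by rw [ho, hpe]; ring
  have e1 : ∫ t, f1 t ^ 2 * p t = 2 * ∫ t in Ioi 0, f1 t ^ 2 * p t :=
    even_int fun t => by rw [he1, hpe]
  rw [e0, e1]; linarith

end Vale.Agent.P146.H44
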